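import Vale.Agent.Lib.P348.helper23.Basics

/-!
Pool leaf K7 for P348 (second copy, helper62): among the joint eigenvectors of two
commuting Hermitian matrices `H`, `N` inside a fixed `H`-eigenspace there is a
normalised one whose `N`-eigenvalue is largest.
-/

namespace Vale.Agent.Lib.P348.H62

open Matrix
open Vale.Agent.Lib.P361 Vale.Agent.Lib.P348

theorem nsq_pos_aux {n : Type*} [Fintype n] (φ : n → ℂ) (hφ : φ ≠ 0) : 0 < nsq φ := by
  rw [nsq_def]
  obtain ⟨σ, hσ0⟩ := Function.ne_iff.mp hφ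
  have hσ : φ σ ≠ 0 := hσ0
  exact Finset.sum_pos' (fun i _ => by positivity)
    ⟨σ, Finset.mem_univ _, pow_pos (norm_pos_iff.mpr hσ) 2⟩

theorem nsq_smul_aux {n : Type*} [Fintype n] (c : ℂ) (φ : n → ℂ) :
    nsq (c • φ) = ‖c‖ ^ 2 * nsq φ := by
  rw [nsq_def, nsq_def, Finset.mul_sum]
  refine Finset.sum_congr rfl fun σ _ => ?_
  rw [Pi.smul_apply, smul_eq_mul, norm_mul, mul_pow]

open scoped ComplexOrder in
/-- An eigenvalue of a Hermitian matrix (with a nonzero eigenvector) is real. -/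
theorem eig_real_aux {n : Type*} [Fintype n] [DecidableEq n] (N : Matrix n n ℂ)
    (hN : N.IsHermitian) (φ : n → ℂ) (hφ : φ ≠ 0) (c : ℂ) (h : N *ᵥ φ = c • φ) :
    c = ((c.re : ℝ) : ℂ) := by
  have h1 : star φ ⬝ᵥ (N *ᵥ φ) = star (N *ᵥ φ) ⬝ᵥ φ := by
    rw [Matrix.star_mulVec, hN.eq, Matrix.dotProduct_mulVec]
  rw [h, dotProduct_smul, star_smul, smul_dotProduct, smul_eq_mul, smul_eq_mul] at h1
  have h2 : star φ ⬝ᵥ φ ≠ 0 := fun h0 => hφ (dotProduct_star_self_eq_zero.mp h0)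
  have h3 : c = star c := mul_right_cancel₀ h2 h1
  have h4 : (starRingEnd ℂ) c = c := h3.symm
  exact (Complex.conj_eq_iff_re.mp h4).symm

theorem exists_top {n : Type*} [Fintype n] [DecidableEq n] (H N : Matrix n n ℂ)
    (hH : H.IsHermitian) (hN : N.IsHermitian) (hHN : H * N = N * H) (k0 : n) :
    ∃ (Ω : n → ℂ) (m : ℝ), nsq Ω = 1 ∧ H *ᵥ Ω = (hH.eigenvalues k0 : ℂ) • Ω ∧
      N *ᵥ Ω = (m : ℂ) • Ω ∧
      ∀ (φ : n → ℂ) (m' : ℝ), φ ≠ 0 → H *ᵥ φ = (hH.eigenvalues k0 : ℂ) • φ →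
        N *ᵥ φ = (m' : ℂ) • φ → m' ≤ m := by
  classical
  let S : Set ℝ := {m' | ∃ φ : n → ℂ, φ ≠ 0 ∧ H *ᵥ φ = (hH.eigenvalues k0 : ℂ) • φ ∧
    N *ᵥ φ = (m' : ℂ) • φ}
  have hSfin : S.Finite := by
    have hsub : S ⊆ (fun μ : ℂ => μ.re) ''
        {μ | Module.End.HasEigenvalue (Matrix.toLin' N) μ} := by
      rintro m' ⟨φ, hφ, -, hNφ⟩
      refine ⟨(m' : ℂ), ?_, Complex.ofReal_re m'⟩
      refine Module.End.hasEigenvalue_of_hasEigenvector (x := φ) ⟨?_, hφ⟩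
      rw [Module.End.mem_eigenspace_iff, Matrix.toLin'_apply]
      exact hNφ
    exact ((Module.End.finite_hasEigenvalue _).image _).subset hsub
  have hSne : S.Nonempty := by
    let G : Submodule ℂ (n → ℂ) :=
      Module.End.eigenspace (Matrix.toLin' H) (hH.eigenvalues k0 : ℂ)
    have hinv : ∀ x ∈ G, Matrix.toLin' N x ∈ G := by
      intro x hx
      have hx' : H *ᵥ x = (hH.eigenvalues k0 : ℂ) • x := by
        have := Module.End.mem_eigenspace_iff.mp hx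
        rwa [Matrix.toLin'_apply] at this
      refine Module.End.mem_eigenspace_iff.mpr ?_
      rw [Matrix.toLin'_apply, Matrix.toLin'_apply, Matrix.mulVec_mulVec, hHN,
        ← Matrix.mulVec_mulVec, hx', Matrix.mulVec_smul]
    have hb1 := hH.mulVec_eigenvectorBasis k0
    have hb2 : (⇑(hH.eigenvectorBasis k0) : n → ℂ) ≠ 0 := by
      intro h0
      apply hH.eigenvectorBasis.orthonormal.ne_zero k0
      ext i
      simpa using congrFun h0 i
    have hbG : (⇑(hH.eigenvectorBasis k0) : n → ℂ) ∈ G := by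
      refine Module.End.mem_eigenspace_iff.mpr ?_
      rw [Matrix.toLin'_apply, hb1]
      ext i
      simp
    have : Nontrivial G :=
      ⟨⟨⟨_, hbG⟩, 0, fun h0 => hb2 (congrArg Subtype.val h0)⟩⟩
    obtain ⟨c, hc⟩ := Module.End.exists_eigenvalue ((Matrix.toLin' N).restrict hinv)
    obtain ⟨v, hv⟩ := hc.exists_hasEigenvector
    have hv1 : (Matrix.toLin' N).restrict hinv v = c • v :=
      Module.End.mem_eigenspace_iff.mp hv.1
    have hv2 : N *ᵥ (v : n → ℂ) = c • (v : n → ℂ) := by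
      have := congrArg Subtype.val hv1
      simpa [Matrix.toLin'_apply] using this
    have hv3 : (v : n → ℂ) ≠ 0 := fun h0 => hv.2 (Subtype.ext h0)
    have hv4 : H *ᵥ (v : n → ℂ) = (hH.eigenvalues k0 : ℂ) • (v : n → ℂ) := by
      have := Module.End.mem_eigenspace_iff.mp v.2
      rwa [Matrix.toLin'_apply] at this
    have hcr := eig_real_aux N hN (v : n → ℂ) hv3 c hv2
    exact ⟨c.re, (v : n → ℂ), hv3, hv4, by rw [← hcr]; exact hv2⟩
  have hne' : hSfin.toFinset.Nonempty := by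
    rw [Set.Finite.toFinset_nonempty]
    exact hSne
  have hmS : hSfin.toFinset.max' hne' ∈ S :=
    (Set.Finite.mem_toFinset hSfin).mp (Finset.max'_mem _ hne')
  have hmax : ∀ m' ∈ S, m' ≤ hSfin.toFinset.max' hne' := fun m' hm' =>
    Finset.le_max' _ _ ((Set.Finite.mem_toFinset hSfin).mpr hm')
  obtain ⟨φ, hφ, hHφ, hNφ⟩ := hmS
  have hpos := nsq_pos_aux φ hφ
  refine ⟨(((Real.sqrt (nsq φ))⁻¹ : ℝ) : ℂ) • φ, hSfin.toFinset.max' hne', ?_, ?_, ?_, ?_⟩
  · rw [nsq_smul_aux, Complex.norm_real, Real.norm_eq_abs, sq_abs, inv_pow,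
      Real.sq_sqrt hpos.le]
    exact inv_mul_cancel₀ hpos.ne'
  · rw [Matrix.mulVec_smul, hHφ, smul_comm]
  · rw [Matrix.mulVec_smul, hNφ, smul_comm]
  · intro ψ m' hψ hHψ hNψ
    exact hmax m' ⟨ψ, hψ, hHψ, hNψ⟩

end Vale.Agent.Lib.P348.H62
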